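import Mathlib.Analysis.Calculus.UniformLimitsDeriv
import Mathlib.Analysis.Calculus.ContDiff.FiniteDimension
import Mathlib.Analysis.Calculus.ContDiff.Operations
import Mathlib.Analysis.Calculus.ContDiff.Comp
import Mathlib.MeasureTheory.Integral.DominatedConvergence
import Mathlib.MeasureTheory.Function.LocallyIntegrable
import Mathlib.Topology.ContinuousMap.Compact
import Mathlib.Analysis.Complex.Basic

/-!
# P352X, row GOOD: calculus with strongly convergent operators
-/

set_option linter.all false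

noncomputable section

open Filter Topology Metric Set MeasureTheory
open scoped ContDiff

namespace Vale.Agent.P352X.Gd

variable {X Y B F K : Type*} [NormedAddCommGroup X] [NormedSpace ℝ X] [FiniteDimensional ℝ X]
  [NormedAddCommGroup Y] [NormedSpace ℝ Y] [NormedAddCommGroup B] [NormedSpace ℝ B]
  [NormedAddCommGroup F] [NormedSpace ℝ F] [TopologicalSpace K] [CompactSpace K]

/-- a function of two variables as a map to a space of continuous functions -/
def cur (j : C(K, Y)) (Φ : C(X × Y, B)) : C(X, C(K, B)) :=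
  (Φ.comp ((ContinuousMap.id X).prodMap j)).curry

theorem cur_apply (j : C(K, Y)) (Φ : C(X × Y, B)) (q k) : cur j Φ q k = Φ (q, j k) := rfl

theorem cur_der (j : C(K, Y)) (Φ : C(X × Y, B)) (h : ContDiff ℝ ∞ Φ) (x : X) :
    ∃ L : X →L[ℝ] C(K, B), HasFDerivAt (cur j Φ) L x ∧
      ∀ y k, L y k = fderiv ℝ Φ (x, j k) (y, 0) := by
  have c : Continuous fun z => (fderiv ℝ Φ z).comp (ContinuousLinearMap.inl ℝ X Y) :=
    (h.continuous_fderiv (by simp)).clm_comp continuous_const
  set Ψ := cur j ⟨_, c⟩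
  let L : X →ₗ[ℝ] C(K, B) :=
    { toFun y := ⟨fun k => Ψ x k y, (Ψ x).continuous.clm_apply continuous_const⟩
      map_add' _ _ := by ext; simp
      map_smul' _ _ := by ext; simp }
  refine ⟨L.toContinuousLinearMap, hasFDerivAt_iff_isLittleO.2 (.of_bound fun ε hε => ?_),
    fun _ _ => rfl⟩
  obtain ⟨δ, hδ, hb⟩ := Metric.continuousAt_iff.1 Ψ.continuous.continuousAt ε hε
  filter_upwards [ball_mem_nhds x hδ] with y hy
  refine (ContinuousMap.norm_le _ (by positivity)).2 fun k => ?_
  exact (convex_ball x δ).norm_image_sub_le_of_norm_hasFDerivWithin_le' (f := fun q => Φ (q, j k))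
    (f' := fun q => Ψ q k) (fun q _ => (((h.differentiable (by simp)) _).hasFDerivAt.comp q
      (hasFDerivAt_prodMk_left q (j k))).hasFDerivWithinAt)
    (fun q hq => by
      rw [← dist_eq_norm]
      exact (ContinuousMap.dist_apply_le_dist k).trans (hb hq).le) (mem_ball_self hδ) hy

theorem cur_sm (j : C(K, Y)) (Φ : C(X × Y, B)) (h : ContDiff ℝ ∞ Φ) : ContDiff ℝ ∞ (cur j Φ) := by
  rw [contDiff_infty]
  intro n
  induction n generalizing Φ with
  | zero => exact contDiff_zero.2 (cur j Φ).continuous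
  | succ n ih =>
    choose L d e using cur_der j Φ h
    rw [Nat.cast_succ, contDiff_succ_iff_fderiv_apply]
    refine ⟨fun q => (d q).differentiableAt, by simp, fun y => ?_⟩
    have s : ContDiff ℝ ∞ fun z => fderiv ℝ Φ z (y, 0) :=
      (h.fderiv_right (m := ∞) le_rfl).clm_apply contDiff_const
    convert ih ⟨_, s.continuous⟩ s using 2 with q
    ext k
    rw [(d q).fderiv, e]
    rfl

variable {T : ℕ → B →L[ℝ] F} {S : B →L[ℝ] F} {C : ℝ}

/-- bounded strongly convergent operators converge locally uniformly -/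
theorem tlu {Z : Type*} [TopologicalSpace Z] {Ψ : Z → B} (hb : ∀ n, ‖T n‖ ≤ C)
    (ht : ∀ b, Tendsto (fun n => T n b) atTop (𝓝 (S b))) (hΨ : Continuous Ψ) :
    TendstoLocallyUniformly (fun n z => T n (Ψ z)) (fun z => S (Ψ z)) atTop := by
  refine tendstoLocallyUniformly_iff_forall_tendsto.2 fun x => ?_
  have a : Tendsto (fun y : ℕ × Z => Ψ y.2) (atTop ×ˢ 𝓝 x) (𝓝 (Ψ x)) :=
    hΨ.continuousAt.tendsto.comp tendsto_snd
  refine (((S.continuous.tendsto _).comp a).prodMk_nhds (f := atTop ×ˢ 𝓝 x)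
    (y := S (Ψ x)) ?_).mono_right (nhds_le_uniformity _)
  have b : Tendsto (fun y : ℕ × Z => T y.1 (Ψ y.2 - Ψ x)) (atTop ×ˢ 𝓝 x) (𝓝 0) :=
    squeeze_zero_norm (fun y => (T y.1).le_of_opNorm_le (hb _) _) (by
      simpa using (tendsto_iff_norm_sub_tendsto_zero.1 a).const_mul C)
  simpa using b.add ((ht (Ψ x)).comp tendsto_fst)

theorem tuo {Z : Type*} [NormedAddCommGroup Z] [NormedSpace ℝ Z] [FiniteDimensional ℝ Z]
    {Ψ : Z → B} (hb : ∀ n, ‖T n‖ ≤ C) (ht : ∀ b, Tendsto (fun n => T n b) atTop (𝓝 (S b)))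
    (hΨ : Continuous Ψ) {s : Set Z} (hs : Bornology.IsVonNBounded ℝ s) :
    TendstoUniformlyOn (fun n z => T n (Ψ z)) (fun z => S (Ψ z)) atTop s :=
  ((tendstoLocallyUniformlyOn_iff_tendstoUniformlyOn_of_compact
    ((NormedSpace.isVonNBounded_iff ℝ).1 hs).isCompact_closure).1
    (tlu hb ht hΨ).tendstoLocallyUniformlyOn).mono subset_closure

/-- all the derivatives converge locally uniformly -/
theorem tlu_iter {Ψ : X → B} (hb : ∀ n, ‖T n‖ ≤ C)
    (ht : ∀ b, Tendsto (fun n => T n b) atTop (𝓝 (S b))) (hΨ : ContDiff ℝ ∞ Ψ) (k : ℕ) :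
    TendstoLocallyUniformly (fun n => iteratedFDeriv ℝ k (T n ∘ Ψ)) (iteratedFDeriv ℝ k (S ∘ Ψ))
      atTop := by
  have e : ∀ A : B →L[ℝ] F, iteratedFDeriv ℝ k (A ∘ Ψ) = fun x =>
      ContinuousLinearMap.compContinuousMultilinearMapL ℝ _ B F A (iteratedFDeriv ℝ k Ψ x) :=
    fun A => funext fun x => A.iteratedFDeriv_comp_left hΨ.contDiffAt (by exact_mod_cast le_top)
  simp only [e]
  refine tlu (C := C) (fun n => ContinuousLinearMap.opNorm_le_bound _ ((norm_nonneg _).trans (hb 0))
    fun M => ((T n).norm_compContinuousMultilinearMap_le M).trans (by gcongr; exact hb n))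
    (fun M => ?_) (hΨ.continuous_iteratedFDeriv (by exact_mod_cast le_top))
  exact ContinuousMultilinearMap.isEmbedding_toUniformOnFun.tendsto_nhds_iff.2
    (UniformOnFun.tendsto_iff_tendstoUniformlyOn.2 fun s hs => tuo hb ht M.cont hs)

/-- smoothness of the orbits under an unbounded operator -/
theorem sm_of {ι D : Type*} [Fintype ι] {e W : D → X → B} {c : ι → X → X →L[ℝ] ℝ}
    {Z A : ℕ → B →L[ℝ] B} (hc : ∀ j, ContDiff ℝ ∞ (c j)) (hW : ∀ v, Continuous (W v))
    (hd : ∀ v, ∃ w : ι → D, ∀ r, HasFDerivAt (e v) (∑ j, (c j r).smulRight (e (w j) r)) r)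
    (hZ : ∀ n v r, Z n (e v r) = A n (W v r)) (hb : ∀ n, ‖A n‖ ≤ C)
    (ht : ∀ b, Tendsto (fun n => A n b) atTop (𝓝 b)) (v : D) : ContDiff ℝ ∞ (W v) := by
  have key : ∀ v, ∃ w : ι → D, ∀ r, HasFDerivAt (W v) (∑ j, (c j r).smulRight (W (w j) r)) r :=
    fun v => (hd v).imp fun w h r => by
      have a := tlu (T := fun n => ContinuousLinearMap.compL ℝ X B B (A n)) (S := .id ℝ _) (C := C)
        (Ψ := fun r => ∑ j, (c j r).smulRight (W (w j) r))
        (fun n => ContinuousLinearMap.opNorm_le_bound _ ((norm_nonneg _).trans (hb 0)) fun M =>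
          ((A n).opNorm_comp_le M).trans (by gcongr; exact hb n))
        (fun M => (UniformConvergenceCLM.tendsto_iff_tendstoUniformlyOn _ _ _).2 fun s hs =>
          tuo (S := .id ℝ _) hb ht M.continuous hs)
        (continuous_finsetSum _ fun j _ => ((ContinuousLinearMap.smulRightL ℝ X B).continuous.comp
          (hc j).continuous).clm_apply (hW _))
      refine hasFDerivAt_of_tendstoLocallyUniformlyOn isOpen_univ a.tendstoLocallyUniformlyOn
        (f := fun n r => Z n (e v r)) (fun n x _ => ?_) (fun x _ => ?_) (mem_univ r)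
      · refine ((Z n).hasFDerivAt.comp x (h x)).congr_fderiv ?_
        ext y
        simp [hZ]
      · simpa only [hZ] using ht _
  rw [contDiff_infty]
  intro n
  induction n generalizing v with
  | zero => exact contDiff_zero.2 (hW v)
  | succ n ih =>
    obtain ⟨w, h⟩ := key v
    rw [Nat.cast_succ, contDiff_succ_iff_fderiv_apply]
    refine ⟨fun q => (h q).differentiableAt, by simp, fun y => ?_⟩
    simp only [fun q => (h q).fderiv, ContinuousLinearMap.sum_apply,
      ContinuousLinearMap.smulRight_apply]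
    exact ContDiff.sum fun j _ =>
      (((hc j).of_le (by exact_mod_cast le_top)).clm_apply contDiff_const).smul (ih _)

end Vale.Agent.P352X.Gd
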