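import Vale.Agent.P352X.R.GOOD.A
import Mathlib.Analysis.VonNeumannAlgebra.Basic
import Mathlib.Analysis.Calculus.BumpFunction.Normed
import Mathlib.Analysis.Calculus.BumpFunction.FiniteDimension
import Mathlib.Analysis.SpecialFunctions.ExpDeriv
import Mathlib.MeasureTheory.Function.L2Space
import Mathlib.MeasureTheory.Measure.Haar.OfBasis
import Mathlib.MeasureTheory.Measure.Lebesgue.Basic

/-!
# P352X, row GOOD: smearing over the group
-/

set_option linter.all false

noncomputable section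

open Filter Topology Metric Set MeasureTheory Function
open scoped ContDiff

namespace Vale.Agent.P352X.Gd

/-- the group -/
abbrev Q3 := ℝ × ℝ × ℝ

/-- the group law -/
def ml (q r : Q3) : Q3 := (q.1 + r.1, Real.exp r.1 • q.2 + r.2)

/-- the inverse -/
def iv (p : Q3) : Q3 := (-p.1, -(Real.exp (-p.1) • p.2))

theorem ml_iv (p : Q3) : ml p (iv p) = 0 := by simp [ml, iv]

theorem iv_ml (p : Q3) : ml (iv p) p = 0 := by simp [ml, iv, smul_smul, ← Real.exp_add]

theorem ml_assoc (p q r : Q3) : ml (ml p q) r = ml p (ml q r) := by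
  simp [ml, smul_smul, add_assoc, Real.exp_add, mul_comm]

theorem zero_ml (p : Q3) : ml 0 p = p := by simp [ml]

theorem ml_zero (p : Q3) : ml p 0 = p := by simp [ml]

theorem iv_zero : iv 0 = 0 := by simp [iv]

theorem iv_iv (p : Q3) : iv (iv p) = p := by simp [iv, smul_smul, ← Real.exp_add]

theorem iv_ml_ml (q p : Q3) : ml (iv q) (ml q p) = p := by rw [← ml_assoc, iv_ml, zero_ml]

theorem ml_iv_ml (q p : Q3) : ml q (ml (iv q) p) = p := by rw [← ml_assoc, ml_iv, zero_ml]

section

variable {X : Type*} [NormedAddCommGroup X] [NormedSpace ℝ X] {a b : X → Q3}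

@[fun_prop] theorem sm_ml (ha : ContDiff ℝ ∞ a) (hb : ContDiff ℝ ∞ b) :
    ContDiff ℝ ∞ fun x => ml (a x) (b x) := by
  unfold ml
  fun_prop

@[fun_prop] theorem sm_iv (ha : ContDiff ℝ ∞ a) : ContDiff ℝ ∞ fun x => iv (a x) := by
  unfold iv
  fun_prop

end

theorem ct_ml : Continuous (uncurry ml) := (sm_ml contDiff_fst contDiff_snd).continuous

theorem ct_iv : Continuous iv := (sm_iv contDiff_id).continuous

theorem int_ml {E : Type*} [NormedAddCommGroup E] [NormedSpace ℝ E] (q : Q3) (F : Q3 → E) :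
    ∫ p, F (ml q p) = ∫ p, F p := by
  let e : Q3 ≃ₜ Q3 := ⟨⟨ml q, ml (iv q), iv_ml_ml q, ml_iv_ml q⟩, ct_ml.uncurry_left q,
    ct_ml.uncurry_left _⟩
  exact ((measurePreserving_add_left volume q.1).skew_product (μc := volume.prod volume)
    (μd := volume.prod volume) (g := fun a (b : ℝ × ℝ) => Real.exp a • q.2 + b) (by fun_prop)
    (.of_forall fun a => map_add_left_eq_self _ _)).integral_comp e.measurableEmbedding F

theorem loc {A : Set Q3} (hA : IsCompact A) (x : Q3) : ∃ K, IsCompact K ∧ ∀ q ∈ ball x 1, ∀ p ∉ K,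
    ml (iv q) p ∉ A :=
  ⟨_, ((isCompact_closedBall x 1).prod hA).image ct_ml, fun q hq p hp h =>
    hp ⟨(q, _), ⟨ball_subset_closedBall hq, h⟩, ml_iv_ml q p⟩⟩

theorem bump {U : Set Q3} (hU : U ∈ 𝓝 0) : ∃ h : Q3 → ℝ, ContDiff ℝ ∞ h ∧ HasCompactSupport h ∧
    tsupport h ⊆ U ∧ (∀ p, 0 ≤ h p) ∧ ∫ p, h p = 1 := by
  obtain ⟨r, r0, hr⟩ := nhds_basis_closedBall.mem_iff.1 hU
  let b : ContDiffBump (0 : Q3) := ⟨r / 2, r, half_pos r0, half_lt_self r0⟩
  exact ⟨b.normed volume, b.contDiff_normed, b.hasCompactSupport_normed,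
    b.tsupport_normed_eq.trans_subset hr, b.nonneg_normed, b.integral_normed⟩

variable {H : Type*} [NormedAddCommGroup H] [InnerProductSpace ℂ H] [CompleteSpace H]
  {Y : Type*} [TopologicalSpace Y] {C : ℝ}

/-- bounded strongly continuous families -/
structure St (S : Y → H →L[ℂ] H) (C : ℝ) : Prop where
  ct : ∀ z, Continuous fun p => S p z
  bd : ∀ p, ‖S p‖ ≤ C
  nn : 0 ≤ C

theorem St.app {S : Y → H →L[ℂ] H} (h : St S C) {φ : Y → H} (hφ : Continuous φ) :
    Continuous fun p => S p (φ p) :=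
  (continuous_prod_of_continuous_lipschitzWith' (fun z : Y × H => S z.1 z.2) ⟨C, h.nn⟩
    (fun a => (S a).lipschitz.weaken (h.bd a)) h.ct).comp (continuous_id.prodMk hφ)

theorem St.mul {S S' : Y → H →L[ℂ] H} {C'} (h : St S C) (h' : St S' C') :
    St (fun p => S p * S' p) (C * C') :=
  ⟨fun z => h.app (h'.ct z), fun p => (norm_mul_le _ _).trans
    (mul_le_mul (h.bd p) (h'.bd p) (norm_nonneg _) h.nn), mul_nonneg h.nn h'.nn⟩

theorem St.comp {Y' : Type*} [TopologicalSpace Y'] {S : Y → H →L[ℂ] H} (h : St S C) {j : Y' → Y}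
    (hj : Continuous j) : St (fun p => S (j p)) C :=
  ⟨fun z => (h.ct z).comp hj, fun _ => h.bd _, h.nn⟩

theorem st_const (Z : H →L[ℂ] H) (h : ‖Z‖ ≤ C) : St (fun _ : Y => Z) C :=
  ⟨fun _ => continuous_const, fun _ => h, (norm_nonneg _).trans h⟩

section K

variable (K : Set Q3) [CompactSpace K] {S : Q3 → H →L[ℂ] H}

theorem cK : IsCompact K := isCompact_iff_compactSpace.2 inferInstance

/-- the measure on `K` -/
def mK : Measure K := volume.comap Subtype.val

instance : IsFiniteMeasure (mK K) :=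
  ⟨by rw [mK, comap_subtype_coe_apply (cK K).measurableSet]; simpa using (cK K).measure_lt_top⟩

theorem int_K {ψ : Q3 → H} (h : ∀ p ∉ K, ψ p = 0) : ∫ k : K, ψ k ∂mK K = ∫ p, ψ p :=
  (integral_subtype_comap (cK K).measurableSet ψ).trans
    (setIntegral_eq_integral_of_forall_compl_eq_zero h)

theorem St.intK (h : St S C) (φ : C(K, H)) : Integrable (fun k : K => S k (φ k)) (mK K) :=
  ((h.comp continuous_subtype_val).app φ.continuous).integrable_of_hasCompactSupport
    (.of_compactSpace _)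

theorem St.le (h : St S C) (φ : C(K, H)) (k : K) : ‖S k (φ k)‖ ≤ C * ‖φ‖ :=
  ((S k).le_of_opNorm_le (h.bd _) _).trans (mul_le_mul_of_nonneg_left (φ.norm_coe_le_norm k) h.nn)

/-- integration against a strongly continuous family -/
def St.T (h : St S C) : C(K, H) →L[ℂ] H :=
  LinearMap.mkContinuous
    { toFun φ := ∫ k : K, S k (φ k) ∂mK K
      map_add' φ ψ := by simp [integral_add (h.intK K φ) (h.intK K ψ)]
      map_smul' a φ := by simp [integral_smul] } (C * (mK K).real univ) fun φ =>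
    (norm_integral_le_of_norm_le_const (.of_forall (h.le K φ))).trans_eq (mul_right_comm _ _ _)

theorem St.T_apply (h : St S C) (φ) : h.T K φ = ∫ k : K, S k (φ k) ∂mK K := rfl

theorem St.norm_T (h : St S C) : ‖h.T K‖ ≤ C * (mK K).real univ :=
  LinearMap.mkContinuous_norm_le _ (mul_nonneg h.nn measureReal_nonneg) _

variable (H) in
/-- products of scalar functions and vectors -/
def mv : C(K, ℂ) →L[ℂ] H →L[ℂ] C(K, H) :=
  LinearMap.mkContinuous₂ (LinearMap.mk₂ ℂ (fun φ v => φ • ContinuousMap.const K v)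
    (fun _ _ _ => add_smul _ _ _) (fun _ _ _ => by ext; simp [mul_smul])
    (fun _ _ _ => by ext; simp) fun _ _ _ => by ext; simp [smul_smul, mul_comm]) 1 fun φ v =>
    (ContinuousMap.norm_le _ (by positivity)).2 fun k => by
      simpa [norm_smul] using mul_le_mul_of_nonneg_right (φ.norm_coe_le_norm k) (norm_nonneg v)

/-- operator valued integration -/
def St.L (h : St S C) : C(K, ℂ) →L[ℂ] H →L[ℂ] H :=
  (ContinuousLinearMap.compL ℂ H _ H (h.T K)).comp (mv H K)

theorem St.L_apply (h : St S C) (φ v) : h.L K φ v = ∫ k : K, φ k • S k v ∂mK K := by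
  simp only [← map_smul]
  rfl

/-- the inclusion -/
def jK : C(K, Q3) := ⟨Subtype.val, continuous_subtype_val⟩

end K

variable {h : Q3 → ℝ} {S : Q3 → H →L[ℂ] H} {X Z : H →L[ℂ] H}

theorem int_h (sh : Continuous h) (ch : HasCompactSupport h) {Φ : Q3 → H} (hΦ : Continuous Φ) :
    Integrable fun p => (h p : ℂ) • Φ p :=
  ((Complex.continuous_ofReal.comp sh).smul hΦ).integrable_of_hasCompactSupport
    (ch.comp_left (g := fun x : ℝ => (x : ℂ)) Complex.ofReal_zero).smul_right

theorem approx {E : Type*} [NormedAddCommGroup E] [NormedSpace ℝ E] [CompleteSpace E]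
    (sh : Continuous h) (ch : HasCompactSupport h) (h0 : ∀ p, 0 ≤ h p)
    (h1 : ∫ p, h p = 1) {Φ : Q3 → E} (hΦ : Continuous Φ) {x : E} {ε : ℝ}
    (k : ∀ p ∈ tsupport h, ‖Φ p - x‖ ≤ ε) : ‖(∫ p, h p • Φ p) - x‖ ≤ ε := by
  have e : ∫ p, h p • x = x := by rw [integral_smul_const, h1, one_smul]
  rw [← e, ← integral_sub ((sh.fun_smul hΦ).integrable_of_hasCompactSupport ch.smul_right)
    ((sh.fun_smul continuous_const).integrable_of_hasCompactSupport ch.smul_right)]
  refine (norm_integral_le_of_norm_le ((sh.integrable_of_hasCompactSupport ch).mul_const ε)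
    (.of_forall fun p => ?_)).trans_eq (by rw [integral_mul_const, h1, one_mul])
  rw [← smul_sub, norm_smul, Real.norm_of_nonneg (h0 p)]
  by_cases c : p ∈ tsupport h
  · exact mul_le_mul_of_nonneg_left (k p c) (h0 p)
  · simp [image_eq_zero_of_notMem_tsupport c]

/-- `X` is the strong integral -/
def Sm (h : Q3 → ℝ) (S : Q3 → H →L[ℂ] H) (X : H →L[ℂ] H) : Prop :=
  ∀ v, X v = ∫ p, (h p : ℂ) • S p v

theorem St.ex (k : St S C) (sh : Continuous h) (ch : HasCompactSupport h) : ∃ X, Sm h S X := by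
  have := isCompact_iff_compactSpace.1 ch
  exact ⟨k.L (tsupport h) ⟨fun p => h p, by fun_prop⟩, fun v => (k.L_apply _ _ v).trans
    (int_K _ (ψ := fun p => (h p : ℂ) • S p v) fun p c => by
      simp [image_eq_zero_of_notMem_tsupport c])⟩

theorem Sm.star (m : Sm h S X) (sh : Continuous h) (ch : HasCompactSupport h) (k : St S C)
    (k' : St (fun p => star (S p)) C) : Sm h (fun p => star (S p)) (star X) := fun v =>
  ext_inner_left ℂ fun w => by
    rw [ContinuousLinearMap.star_eq_adjoint, ContinuousLinearMap.adjoint_inner_right,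
      ← inner_conj_symm, m, ← integral_inner (int_h sh ch (k.ct w)), ← integral_conj,
      ← integral_inner (int_h sh ch (k'.ct v))]
    simp only [inner_smul_right, map_mul, Complex.conj_ofReal, inner_conj_symm,
      ContinuousLinearMap.star_eq_adjoint, ContinuousLinearMap.adjoint_inner_right]

theorem Sm.mem (m : Sm h S X) (sh : Continuous h) (ch : HasCompactSupport h) (k : St S C)
    {M : VonNeumannAlgebra H} (hM : ∀ p ∈ tsupport h, S p ∈ M) : X ∈ M := by
  rw [← M.commutant_commutant, VonNeumannAlgebra.mem_commutant_iff]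
  refine fun Y hY => ContinuousLinearMap.ext fun v => ?_
  rw [ContinuousLinearMap.mul_apply, ContinuousLinearMap.mul_apply, m, m,
    ← Y.integral_comp_comm (int_h sh ch (k.ct v))]
  refine integral_congr_ae (.of_forall fun p => ?_)
  by_cases c : p ∈ tsupport h
  · have := congrArg (· v) (VonNeumannAlgebra.mem_commutant_iff.1 hY _ (hM p c))
    simp only [ContinuousLinearMap.mul_apply] at this
    simp only [map_smul, this]
  · simp [image_eq_zero_of_notMem_tsupport c]

/-- unitary representations -/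
structure Rp (g : Q3 → H →L[ℂ] H) : Prop where
  mul : ∀ q r, g q * g r = g (ml q r)
  one : g 0 = 1
  uni : ∀ q, g q ∈ unitary (H →L[ℂ] H)
  ct : ∀ z, Continuous fun p => g p z

namespace Rp

variable {g : Q3 → H →L[ℂ] H} (r : Rp g)
include r

theorem st : St g 1 := ⟨r.ct, fun p => ContinuousLinearMap.opNorm_le_bound _ zero_le_one fun z => by
  rw [ContinuousLinearMap.norm_map_of_mem_unitary (r.uni p), one_mul], zero_le_one⟩

theorem star_eq (p : Q3) : star (g p) = g (iv p) := by
  rw [← mul_one (star _), ← r.one, ← ml_iv p, ← r.mul, ← mul_assoc, (r.uni p).1, one_mul]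

theorem ad (Z : H →L[ℂ] H) : St (fun p => g p * Z * star (g p)) (1 * ‖Z‖ * 1) := by
  simpa only [r.star_eq] using (r.st.mul (st_const Z le_rfl)).mul (r.st.comp ct_iv)

theorem der {v : H} {A : Q3 →L[ℝ] H} (d : HasFDerivAt (fun q => g q v) A 0) (x : Q3) :
    HasFDerivAt (fun q => g q v)
      (((g x).restrictScalars ℝ).comp (A.comp (fderiv ℝ (ml (iv x)) x))) x :=
  (((g x).restrictScalars ℝ).hasFDerivAt.comp x (HasFDerivAt.comp x (g := fun q => g q v)
    (f := ml (iv x)) (iv_ml x ▸ d) (((sm_ml contDiff_const contDiff_id).differentiable (by simp))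
      x).hasFDerivAt)).congr_of_eventuallyEq (.of_forall fun q => by
    simpa [ml_iv_ml] using (congrArg (· v) (r.mul x (ml (iv x) q))).symm)

theorem chg (sh : Continuous h) (ch : HasCompactSupport h) {Φ : Q3 → H} (hΦ : Continuous Φ)
    (q : Q3) : g q (∫ p, (h p : ℂ) • g p (Φ p)) =
      ∫ p, (h (ml (iv q) p) : ℂ) • g p (Φ (ml (iv q) p)) := by
  rw [← (g q).integral_comp_comm (int_h sh ch (r.st.app hΦ)), ← int_ml q fun p =>
    (h (ml (iv q) p) : ℂ) • g p (Φ (ml (iv q) p))]
  simp only [iv_ml_ml, map_smul, ← r.mul, ContinuousLinearMap.mul_apply]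

theorem good (sh : ContDiff ℝ ∞ h) (ch : HasCompactSupport h)
    (m : Sm h (fun p => g p * Z * star (g p)) X) : ContDiff ℝ ∞ fun q => g q * X * star (g q) := by
  refine contDiff_iff_contDiffAt.2 fun x => ?_
  obtain ⟨K, hK, k⟩ := loc ch x
  have := isCompact_iff_compactSpace.1 hK
  have s : ContDiff ℝ ∞ fun z : Q3 × Q3 => (h (ml (iv z.1) z.2) : ℂ) :=
    Complex.ofRealCLM.contDiff.comp (sh.comp (by fun_prop))
  refine ((((r.ad Z).L K).restrictScalars ℝ).contDiff.comp
    (cur_sm (jK K) ⟨_, s.continuous⟩ s)).contDiffAt.congr_of_eventuallyEq ?_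
  filter_upwards [ball_mem_nhds x one_pos] with q hq
  ext v
  have e : ∀ p, star (g (ml (iv q) p)) (star (g q) v) = star (g p) v := fun p => by
    rw [← ContinuousLinearMap.mul_apply, ← star_mul, r.mul, ml_iv_ml]
  refine Eq.trans ?_ (((r.ad Z).L_apply K _ v).trans (int_K K (ψ := fun p =>
    (h (ml (iv q) p) : ℂ) • (g p * Z * star (g p)) v) fun p c => by
      simp [image_eq_zero_of_notMem_tsupport (k q hq p c)])).symm
  rw [ContinuousLinearMap.mul_apply, ContinuousLinearMap.mul_apply, m]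
  refine (r.chg sh.continuous ch (Φ := fun p => Z (star (g p) (star (g q) v))) (Z.continuous.comp
    (by simpa only [r.star_eq] using (r.st.comp ct_iv).ct _)) q).trans ?_
  simp only [ContinuousLinearMap.mul_apply, e]

theorem conv (sh : ContDiff ℝ ∞ h) (ch : HasCompactSupport h) {A : ℕ → H →L[ℂ] H}
    (hb : ∀ n, ‖A n‖ ≤ C) (ht : ∀ b, Tendsto (fun n => A n b) atTop (𝓝 b)) {W : Q3 → H}
    (hW : ContDiff ℝ ∞ W) (j : ℕ) : TendstoLocallyUniformly
      (fun n => iteratedFDeriv ℝ j fun q => g q (∫ p, (h p : ℂ) • g p (A n (W p))))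
      (iteratedFDeriv ℝ j fun q => g q (∫ p, (h p : ℂ) • g p (W p))) atTop := by
  refine tendstoLocallyUniformly_iff_forall_tendsto.2 fun x => ?_
  obtain ⟨K, hK, k⟩ := loc ch x
  have := isCompact_iff_compactSpace.1 hK
  have s : ContDiff ℝ ∞ fun z : Q3 × Q3 => (h (ml (iv z.1) z.2) : ℂ) • W (ml (iv z.1) z.2) :=
    (Complex.ofRealCLM.contDiff.comp (sh.comp (by fun_prop))).smul (hW.comp (by fun_prop))
  have t := fun n => r.st.mul (st_const (A n) (hb n))
  have t1 := r.st.mul (st_const (1 : H →L[ℂ] H) le_rfl)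
  have e : ∀ {B : H →L[ℂ] H} {C} (t : St (fun p => g p * B) C), ∀ q ∈ ball x 1,
      iteratedFDeriv ℝ j ((t.T K).restrictScalars ℝ ∘ cur (jK K) ⟨_, s.continuous⟩) q =
      iteratedFDeriv ℝ j (fun q => g q (∫ p, (h p : ℂ) • g p (B (W p)))) q := fun {B _} t y hy => by
    refine (EventuallyEq.iteratedFDeriv ℝ ?_ j).self_of_nhds
    filter_upwards [isOpen_ball.mem_nhds hy] with q hq
    rw [r.chg sh.continuous ch (Φ := fun p => B (W p)) (B.continuous.comp hW.continuous)]
    refine (int_K K (ψ := fun p => (g p * B) ((h (ml (iv q) p) : ℂ) • W (ml (iv q) p)))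
      fun p c => by simp [image_eq_zero_of_notMem_tsupport (k q hq p c)]).trans ?_
    simp only [map_smul, ContinuousLinearMap.mul_apply]
  refine (tendstoLocallyUniformly_iff_forall_tendsto.1 (tlu_iter
    (T := fun n => ((t n).T K).restrictScalars ℝ) (S := (t1.T K).restrictScalars ℝ)
    (fun n => (t n).norm_T K) (fun φ => ?_) (cur_sm (jK K) ⟨_, s.continuous⟩ s) j) x).congr' ?_
  · exact tendsto_integral_of_dominated_convergence (fun _ => 1 * C * ‖φ‖)
      (fun n => ((t n).intK K φ).1) (integrable_const _) (fun n => .of_forall ((t n).le K φ))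
      (.of_forall fun k => ((g k).continuous.tendsto _).comp (ht _))
  · filter_upwards [tendsto_snd.eventually (ball_mem_nhds x one_pos)] with y hy
    rw [e _ _ hy, e _ _ hy]
    rfl

end Rp

end Vale.Agent.P352X.Gd
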